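import Vale.Agent.P073.GB1.Pert
import Vale.Agent.P073.Net.Maps

/-!
# P073, block GB1: moving finitely many points inside disjoint cubes
-/

open Set Metric Topology Filter

namespace P073.GB1

open Vale.Agent.P073.St (V)
open P073.Net (conicalOn_norm conicalOn_coord)

/-- weight: `1` at `p`, `0` at distance `≥ d` -/
noncomputable def wt (d : ℝ) (p x : V) : ℝ := max 0 (1 - ‖x - p‖ / d)

theorem wt_nonneg (d : ℝ) (p x : V) : 0 ≤ wt d p x := le_max_left _ _

theorem wt_self (d : ℝ) (p : V) : wt d p p = 1 := by simp [wt]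

theorem wt_eq_zero {d : ℝ} (hd : 0 < d) {p x : V} (h : d ≤ ‖x - p‖) : wt d p x = 0 := by
  rw [wt, max_eq_left]
  have := (one_le_div hd).2 h
  linarith

theorem wt_eq {d : ℝ} (hd : 0 < d) {p x : V} (h : ‖x - p‖ ≤ d) : wt d p x = 1 - ‖x - p‖ / d := by
  rw [wt, max_eq_right]
  have := (div_le_one hd).2 h
  linarith

theorem wt_le_one {d : ℝ} (hd : 0 < d) (p x : V) : wt d p x ≤ 1 := by
  rw [wt]
  refine max_le zero_le_one ?_
  have : 0 ≤ ‖x - p‖ / d := by positivity
  linarith

theorem wt_lip {d : ℝ} (hd : 0 < d) (p x y : V) : |wt d p x - wt d p y| ≤ ‖x - y‖ / d := by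
  have h1 : |wt d p x - wt d p y| ≤ |(1 - ‖x - p‖ / d) - (1 - ‖y - p‖ / d)| := by
    have := abs_max_sub_max_le_abs (1 - ‖x - p‖ / d) (1 - ‖y - p‖ / d) 0
    rw [wt, wt, max_comm 0, max_comm 0]
    exact this
  refine h1.trans ?_
  have h2 : (1 - ‖x - p‖ / d) - (1 - ‖y - p‖ / d) = (‖y - p‖ - ‖x - p‖) / d := by ring
  rw [h2, abs_div, abs_of_pos hd]
  refine div_le_div_of_nonneg_right ?_ hd.le
  have h3 := abs_norm_sub_norm_le (y - p) (x - p)
  have h4 : y - p - (x - p) = y - x := by abel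
  rw [h4, norm_sub_rev y x] at h3
  exact h3

theorem wt_conical (d : ℝ) (p : V) : ConicalOn (wt d p) univ ∧ Continuous (wt d p) := by
  have c1 : Continuous fun x : V => 1 - ‖x - p‖ / d := by fun_prop
  refine ⟨?_, continuous_const.max c1⟩
  have h1 : ConicalOn (fun x : V => ‖x - p‖) univ := by
    have h2 : ConicalOn (fun x : V => x - p) univ :=
      (conicalOn_id locCone_univ.conicalSet).sub (conicalOn_const p locCone_univ.conicalSet)
    exact conicalOn_norm.comp h2 (mapsTo_univ _ _) (by fun_prop)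
  have h3 : ConicalOn (fun x : V => 1 - ‖x - p‖ / d) univ := by
    have h4 := (conicalOn_const (1:ℝ) locCone_univ.conicalSet).sub (h1.const_smul d⁻¹)
    refine h4.congr fun x _ => ?_
    simp only [smul_eq_mul]
    ring
  exact (conicalOn_const (0:ℝ) locCone_univ.conicalSet).rmax h3 (by fun_prop) c1.continuousOn

variable {B : Type}

/-- the displacement -/
noncomputable def bump (M : Finset B) (d : ℝ) (p v : B → V) (x : V) : V :=
  ∑ i ∈ M, wt d (p i) x • v i

variable {M : Finset B} {d μ : ℝ} {p v : B → V}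

theorem bump_eq_zero (hd : 0 < d) {x : V} (h : ∀ i ∈ M, d ≤ ‖x - p i‖) : bump M d p v x = 0 :=
  Finset.sum_eq_zero fun i hi => by rw [wt_eq_zero hd (h i hi), zero_smul]

theorem bump_eq (hd : 0 < d) (hsep : ∀ i ∈ M, ∀ j ∈ M, i ≠ j → 2 * d ≤ ‖p i - p j‖) {x : V}
    {i : B} (hi : i ∈ M) (hx : ‖x - p i‖ ≤ d) : bump M d p v x = wt d (p i) x • v i := by
  refine Finset.sum_eq_single_of_mem i hi fun j hj hji => ?_
  have h1 := hsep j hj i hi hji
  have h2 : ‖p j - p i‖ ≤ ‖x - p i‖ + ‖x - p j‖ := by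
    have h3 : p j - p i = (x - p i) - (x - p j) := by abel
    rw [h3]
    exact norm_sub_le _ _
  rw [wt_eq_zero hd (by linarith), zero_smul]

theorem bump_cases (hd : 0 < d) (hsep : ∀ i ∈ M, ∀ j ∈ M, i ≠ j → 2 * d ≤ ‖p i - p j‖) (x : V) :
    (∀ i ∈ M, d ≤ ‖x - p i‖) ∨
    ∃ i ∈ M, ‖x - p i‖ < d ∧ bump M d p v x = wt d (p i) x • v i := by
  by_cases h : ∀ i ∈ M, d ≤ ‖x - p i‖
  · exact Or.inl h
  · push Not at h
    obtain ⟨i, hi, hx⟩ := h
    exact Or.inr ⟨i, hi, hx, bump_eq hd hsep hi hx.le⟩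

theorem norm_bump_le (hd : 0 < d) (hμ : 0 ≤ μ)
    (hsep : ∀ i ∈ M, ∀ j ∈ M, i ≠ j → 2 * d ≤ ‖p i - p j‖) (hv : ∀ i ∈ M, ‖v i‖ ≤ μ) (x : V) :
    ‖bump M d p v x‖ ≤ μ := by
  rcases bump_cases (v := v) hd hsep x with h | ⟨i, hi, -, h⟩
  · rw [bump_eq_zero hd h, norm_zero]; exact hμ
  · rw [h, norm_smul, Real.norm_of_nonneg (wt_nonneg _ _ _)]
    calc wt d (p i) x * ‖v i‖ ≤ 1 * μ := by
          gcongr
          · exact wt_le_one hd _ _
          · exact hv i hi
      _ = μ := one_mul _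

/-- the size of the displacement is controlled by the distance to a point where it vanishes -/
theorem norm_bump_le_of_zero (hd : 0 < d)
    (hv : ∀ i ∈ M, ‖v i‖ ≤ μ) {x y : V} {i : B} (hi : i ∈ M)
    (h : bump M d p v x = wt d (p i) x • v i) (hy : d ≤ ‖y - p i‖) :
    ‖bump M d p v x‖ ≤ μ / d * ‖x - y‖ := by
  rw [h, norm_smul, Real.norm_of_nonneg (wt_nonneg _ _ _)]
  have h1 := wt_lip hd (p i) x y
  rw [wt_eq_zero hd hy, sub_zero, abs_of_nonneg (wt_nonneg _ _ _)] at h1
  calc wt d (p i) x * ‖v i‖ ≤ (‖x - y‖ / d) * μ := by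
        gcongr
        exact hv i hi
    _ = _ := by ring

theorem bump_lip (hd : 0 < d) (hμ : 0 ≤ μ)
    (hsep : ∀ i ∈ M, ∀ j ∈ M, i ≠ j → 2 * d ≤ ‖p i - p j‖) (hv : ∀ i ∈ M, ‖v i‖ ≤ μ) (x y : V) :
    ‖bump M d p v x - bump M d p v y‖ ≤ 2 * (μ / d) * ‖x - y‖ := by
  have hμd : 0 ≤ μ / d := by positivity
  have hn : 0 ≤ μ / d * ‖x - y‖ := by positivity
  rcases bump_cases (v := v) hd hsep x with hx | ⟨i, hi, hxi, hx⟩
  · rcases bump_cases (v := v) hd hsep y with hy | ⟨j, hj, hyj, hy⟩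
    · rw [bump_eq_zero hd hx, bump_eq_zero hd hy, sub_zero, norm_zero]
      linarith
    · rw [bump_eq_zero hd hx, zero_sub, norm_neg]
      have := norm_bump_le_of_zero hd hv hj hy (hx j hj)
      rw [norm_sub_rev y x] at this
      linarith
  · rcases bump_cases (v := v) hd hsep y with hy | ⟨j, hj, hyj, hy⟩
    · rw [bump_eq_zero (v := v) hd hy, sub_zero]
      have := norm_bump_le_of_zero hd hv hi hx (hy i hi)
      linarith
    · by_cases hij : i = j
      · subst hij
        rw [hx, hy, ← sub_smul, norm_smul, Real.norm_eq_abs]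
        have h1 := wt_lip hd (p i) x y
        calc |wt d (p i) x - wt d (p i) y| * ‖v i‖ ≤ (‖x - y‖ / d) * μ := by
              gcongr
              exact hv i hi
          _ = μ / d * ‖x - y‖ := by ring
          _ ≤ _ := by linarith
      · have h1 : d ≤ ‖y - p i‖ := by
          have h2 := hsep i hi j hj hij
          have h3 : ‖p i - p j‖ ≤ ‖y - p i‖ + ‖y - p j‖ := by
            have h4 : p i - p j = (y - p j) - (y - p i) := by abel
            rw [h4]
            exact (norm_sub_le _ _).trans (by linarith)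
          linarith
        have h1' : d ≤ ‖x - p j‖ := by
          have h2 := hsep i hi j hj hij
          have h3 : ‖p i - p j‖ ≤ ‖x - p i‖ + ‖x - p j‖ := by
            have h4 : p i - p j = (x - p j) - (x - p i) := by abel
            rw [h4]
            exact (norm_sub_le _ _).trans (by linarith)
          linarith
        have e1 := norm_bump_le_of_zero hd hv hi hx h1
        have e2 := norm_bump_le_of_zero hd hv hj hy h1'
        rw [norm_sub_rev y x] at e2
        have e3 := norm_sub_le (bump M d p v x) (bump M d p v y)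
        linarith

theorem bump_conical (M : Finset B) (d : ℝ) (p v : B → V) : ConicalOn (bump M d p v) univ := by
  classical
  induction M using Finset.induction_on with
  | empty =>
    have : bump (∅ : Finset B) d p v = fun _ => 0 := by funext x; simp [bump]
    rw [this]
    exact conicalOn_const _ locCone_univ.conicalSet
  | insert i M hi ih =>
    have h1 : bump (insert i M) d p v = fun x => wt d (p i) x • v i + bump M d p v x := by
      funext x; rw [bump, Finset.sum_insert hi]; rfl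
    rw [h1]
    have h2 : ConicalOn (fun x => wt d (p i) x • v i) univ := by
      have := (wt_conical d (p i)).1.linear_comp
        ((LinearMap.id : ℝ →ₗ[ℝ] ℝ).smulRight (v i))
      simpa using this
    exact h2.add ih

/-- **the move**: a conical homeomorphism of the space which moves `p i` by `v i` -/
theorem exists_move (hd : 0 < d) (hμ : 0 ≤ μ) (hμd : 4 * μ ≤ d)
    (hsep : ∀ i ∈ M, ∀ j ∈ M, i ≠ j → 2 * d ≤ ‖p i - p j‖) (hv : ∀ i ∈ M, ‖v i‖ ≤ μ) :
    ∃ Ψ : ConHomeo (univ : Set V) (univ : Set V), (∀ x, Ψ.toFun x = x + bump M d p v x) ∧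
      ∀ x y, ‖(Ψ.toFun x - Ψ.toFun y)‖ ≤ 3 / 2 * ‖x - y‖ := by
  have hc : 2 * (μ / d) ≤ 1 / 2 := by
    have : μ / d ≤ 1 / 4 := by rw [div_le_iff₀ hd]; linarith
    linarith
  have hl : ∀ x y, ‖bump M d p v x - bump M d p v y‖ ≤ 1 / 2 * ‖x - y‖ := fun x y =>
    (bump_lip hd hμ hsep hv x y).trans (mul_le_mul_of_nonneg_right hc (norm_nonneg _))
  obtain ⟨Ψ, hΨ⟩ := exists_pert (by norm_num) (by norm_num) hl (bump_conical M d p v)
  refine ⟨Ψ, hΨ, fun x y => ?_⟩
  have h1 : Ψ.toFun x - Ψ.toFun y = (x - y) + (bump M d p v x - bump M d p v y) := by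
    rw [hΨ, hΨ]; abel
  rw [h1]
  refine (norm_add_le _ _).trans ?_
  linarith [hl x y]

end P073.GB1
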