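import Vale.Agent.P073.GB1.Pert
import Vale.Agent.P073.Net.Maps

/-!
# P073, block GB1: reparametrisation of a segment which moves one interior point
-/

open Set Metric Topology Filter

namespace P073.GB1

open Vale.Agent.P073.St (V)
open P073.Net (conicalOn_norm conicalOn_coord)

/-- the piecewise affine homeomorphism of `ℝ` with `0 ↦ 0`, `a ↦ b`, `1 ↦ 1` -/
noncomputable def rep (a b s : ℝ) : ℝ := s * (b / a) + ((1 - b) / (1 - a) - b / a) * max 0 (s - a)

theorem rep_le {a b s : ℝ} (h : s ≤ a) : rep a b s = s * (b / a) := by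
  rw [rep, max_eq_left (by linarith), mul_zero, add_zero]

theorem rep_ge {a b s : ℝ} (ha : a ≠ 0) (h : a ≤ s) :
    rep a b s = b + (s - a) * ((1 - b) / (1 - a)) := by
  rw [rep, max_eq_right (by linarith)]
  field_simp
  ring

theorem rep_zero {a b : ℝ} (ha : 0 < a) : rep a b 0 = 0 := by rw [rep_le ha.le, zero_mul]

theorem rep_self {a b : ℝ} (ha : a ≠ 0) : rep a b a = b := by
  rw [rep_le le_rfl]; field_simp

theorem rep_one {a b : ℝ} (ha : 0 < a) (ha1 : a < 1) : rep a b 1 = 1 := by
  rw [rep_ge ha.ne' ha1.le]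
  have : 1 - a ≠ 0 := by linarith
  field_simp
  ring

theorem rep_id {a s : ℝ} (ha : 0 < a) (ha1 : a < 1) : rep a a s = s := by
  have : 1 - a ≠ 0 := by linarith
  rw [rep, div_self ha.ne', div_self this]; ring

theorem rep_rep {a b : ℝ} (ha : 0 < a) (ha1 : a < 1) (hb : 0 < b) (hb1 : b < 1) (s : ℝ) :
    rep b a (rep a b s) = s := by
  have h1 : 0 < 1 - a := by linarith
  have h2 : 0 < 1 - b := by linarith
  rcases le_total s a with h | h
  · rw [rep_le h, rep_le (by rw [← mul_div_assoc, div_le_iff₀ ha]; nlinarith)]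
    field_simp
  · rw [rep_ge ha.ne' h, rep_ge hb.ne' (by
      have : 0 ≤ (s - a) * ((1 - b) / (1 - a)) := mul_nonneg (by linarith) (by positivity)
      linarith)]
    field_simp
    ring

theorem rep_strictMono {a b : ℝ} (ha : 0 < a) (ha1 : a < 1) (hb : 0 < b) (hb1 : b < 1) :
    StrictMono (rep a b) := by
  have h1 : 0 < 1 - a := by linarith
  have h2 : 0 < 1 - b := by linarith
  have hp : 0 < b / a := by positivity
  have hq : 0 < (1 - b) / (1 - a) := by positivity
  intro s t hst
  rcases le_total t a with ht | ht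
  · rw [rep_le ht, rep_le (hst.le.trans ht)]
    exact mul_lt_mul_of_pos_right hst hp
  · rw [rep_ge ha.ne' ht]
    rcases le_total s a with hs | hs
    · rw [rep_le hs]
      have h3 : s * (b / a) ≤ b := by rw [← mul_div_assoc, div_le_iff₀ ha]; nlinarith
      have h4 : 0 ≤ (t - a) * ((1 - b) / (1 - a)) := mul_nonneg (by linarith) hq.le
      rcases hs.lt_or_eq with h5 | h5
      · have h6 : s * (b / a) < b := by
          rw [← mul_div_assoc, div_lt_iff₀ ha]; nlinarith
        linarith
      · have h6 : 0 < (t - a) * ((1 - b) / (1 - a)) := mul_pos (by linarith) hq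
        linarith
    · rw [rep_ge ha.ne' hs]
      have := mul_lt_mul_of_pos_right (sub_lt_sub_right hst a) hq
      linarith

/-- slopes -/
theorem rep_lip {a b C : ℝ} (ha : 0 < a) (ha1 : a < 1) (hb : 0 < b) (hb1 : b < 1)
    (h1 : b / a ≤ C) (h2 : (1 - b) / (1 - a) ≤ C) (s t : ℝ) :
    |rep a b s - rep a b t| ≤ C * |s - t| := by
  wlog hst : t ≤ s generalizing s t
  · have := this t s (le_of_not_ge hst)
    rwa [abs_sub_comm, abs_sub_comm t s] at this
  have hm := (rep_strictMono ha ha1 hb hb1).monotone hst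
  rw [abs_of_nonneg (by linarith), abs_of_nonneg (by linarith)]
  have h3 : 0 < 1 - a := by linarith
  rcases le_total s a with hs | hs
  · rw [rep_le hs, rep_le (hst.trans hs), ← sub_mul, mul_comm]
    exact mul_le_mul_of_nonneg_right h1 (by linarith)
  · rcases le_total t a with ht | ht
    · rw [rep_ge ha.ne' hs, rep_le ht]
      have e1 : b + (s - a) * ((1 - b) / (1 - a)) - t * (b / a) =
          (1 - b) / (1 - a) * (s - a) + b / a * (a - t) := by field_simp; ring
      have e2 : C * (s - t) = C * (s - a) + C * (a - t) := by ring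
      rw [e1, e2]
      exact add_le_add (mul_le_mul_of_nonneg_right h2 (by linarith))
        (mul_le_mul_of_nonneg_right h1 (by linarith))
    · rw [rep_ge ha.ne' hs, rep_ge ha.ne' ht]
      have e1 : b + (s - a) * ((1 - b) / (1 - a)) - (b + (t - a) * ((1 - b) / (1 - a))) =
          (1 - b) / (1 - a) * (s - t) := by ring
      rw [e1]
      exact mul_le_mul_of_nonneg_right h2 (by linarith)

theorem rep_conical (a b : ℝ) : ConicalOn (rep a b) univ ∧ Continuous (rep a b) := by
  have hu : ConicalSet (univ : Set ℝ) := locCone_univ.conicalSet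
  have h1 : ConicalOn (fun s : ℝ => s - a) univ := (conicalOn_id hu).sub (conicalOn_const a hu)
  have h2 : ConicalOn (fun s : ℝ => max 0 (s - a)) univ :=
    (conicalOn_const (0:ℝ) hu).rmax h1 (by fun_prop) (by fun_prop)
  refine ⟨?_, by unfold rep; fun_prop⟩
  refine (((conicalOn_id hu).const_smul (b / a)).add
    (h2.const_smul ((1 - b) / (1 - a) - b / a))).congr fun s _ => ?_
  simp only [rep, smul_eq_mul]
  ring

/-- coordinate along the segment -/
noncomputable def lc (P Q : V) (k : Fin 3) (x : V) : ℝ := (x k - P k) / (Q k - P k)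

theorem lc_add {P Q : V} {k : Fin 3} (h : P k ≠ Q k) (x : V) (r : ℝ) :
    lc P Q k (x + r • (Q - P)) = lc P Q k x + r := by
  have h' : Q k - P k ≠ 0 := sub_ne_zero.2 h.symm
  simp only [lc, Pi.add_apply, Pi.smul_apply, Pi.sub_apply, smul_eq_mul]
  field_simp
  ring

theorem lc_seg {P Q : V} {k : Fin 3} (h : P k ≠ Q k) (r : ℝ) :
    lc P Q k (P + r • (Q - P)) = r := by
  rw [lc_add h]; simp [lc]

/-- **(CHI)** reparametrisation of the segment `[P, Q]` moving the point with parameter `a` to the
point with parameter `b` -/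
theorem exists_chi {P Q : V} (hPQ : P ≠ Q) {a b : ℝ} (ha : 0 < a) (ha1 : a < 1) (hb : 0 < b)
    (hb1 : b < 1) :
    ∃ χ : ConHomeo (segment ℝ P Q) (segment ℝ P Q), ∀ s ∈ Icc (0:ℝ) 1,
      χ.toFun (P + s • (Q - P)) = P + rep a b s • (Q - P) := by
  obtain ⟨k, hk⟩ := Function.ne_iff.1 hPQ
  let f : ℝ → ℝ → V → V := fun a b x => x + (rep a b (lc P Q k x) - lc P Q k x) • (Q - P)
  have hf : ∀ a b s, f a b (P + s • (Q - P)) = P + rep a b s • (Q - P) := by
    intro a b s
    simp only [f]
    rw [lc_seg hk]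
    module
  have hlc : ConicalOn (lc P Q k) univ ∧ Continuous (lc P Q k) := by
    refine ⟨?_, by unfold lc; fun_prop⟩
    refine (((conicalOn_coord k).sub (conicalOn_const (P k) locCone_univ.conicalSet)).const_smul
      (Q k - P k)⁻¹).congr fun x _ => ?_
    simp only [lc, smul_eq_mul]
    ring
  have hcon : ∀ a b, ConicalOn (f a b) univ ∧ Continuous (f a b) := by
    intro a b
    have h1 : ConicalOn (fun x => rep a b (lc P Q k x)) univ :=
      (rep_conical a b).1.comp hlc.1 (mapsTo_univ _ _) hlc.2.continuousOn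
    have h2 : Continuous (fun x => rep a b (lc P Q k x)) := (rep_conical a b).2.comp hlc.2
    have h3 : ConicalOn (fun x => (rep a b (lc P Q k x) - lc P Q k x) • (Q - P)) univ := by
      have := (h1.sub hlc.1).linear_comp ((LinearMap.id : ℝ →ₗ[ℝ] ℝ).smulRight (Q - P))
      simpa using this
    exact ⟨(conicalOn_id locCone_univ.conicalSet).add h3,
      continuous_id.add ((h2.sub hlc.2).smul continuous_const)⟩
  have hmaps : ∀ {a b : ℝ}, 0 < a → a < 1 → 0 < b → b < 1 →
      MapsTo (f a b) (segment ℝ P Q) (segment ℝ P Q) := by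
    intro a b ha ha1 hb hb1 x hx
    rw [segment_eq_image'] at hx
    obtain ⟨s, hs, rfl⟩ := hx
    show f a b (P + s • (Q - P)) ∈ _
    rw [hf, segment_eq_image']
    have hm := (rep_strictMono ha ha1 hb hb1).monotone
    refine ⟨rep a b s, ⟨?_, ?_⟩, rfl⟩
    · rw [← rep_zero (b := b) ha]; exact hm hs.1
    · rw [← rep_one (b := b) ha ha1]; exact hm hs.2
  have hinv : ∀ {a b : ℝ}, 0 < a → a < 1 → 0 < b → b < 1 →
      LeftInvOn (f b a) (f a b) (segment ℝ P Q) := by
    intro a b ha ha1 hb hb1 x hx
    rw [segment_eq_image'] at hx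
    obtain ⟨s, hs, rfl⟩ := hx
    show f b a (f a b (P + s • (Q - P))) = P + s • (Q - P)
    rw [hf, hf, rep_rep ha ha1 hb hb1]
  exact ⟨{ toFun := f a b
           invFun := f b a
           mapsTo := hmaps ha ha1 hb hb1
           mapsTo_inv := hmaps hb hb1 ha ha1
           left_inv := hinv ha ha1 hb hb1
           right_inv := hinv hb hb1 ha ha1
           cont := (hcon a b).2.continuousOn
           cont_inv := (hcon b a).2.continuousOn
           conical := (hcon a b).1.mono (convex_segment P Q |> Convex.conicalSet)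
            (subset_univ _) }, fun s _ => hf a b s⟩

end P073.GB1
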