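import Vale.Agent.P073.GB1.Pert
import Vale.Agent.P073.Net.Maps

/-!
# P073, block GB1: stretching a box, coordinate by coordinate, in a thin collar
-/

open Set Metric Topology Filter

namespace P073.GB1

open Vale.Agent.P073.St (V)
open P073.Net (conicalOn_norm conicalOn_coord)

/-- `0` on `[-r, r]`, slope one outside -/
noncomputable def hh (r s : ℝ) : ℝ := max 0 (s - r) - max 0 (-s - r)

theorem hh_zero {r s : ℝ} (h : |s| ≤ r) : hh r s = 0 := by
  rw [abs_le] at h
  rw [hh, max_eq_left (by linarith), max_eq_left (by linarith), sub_self]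

theorem hh_pos {r s : ℝ} (hr : 0 ≤ r) (h : r ≤ s) : hh r s = s - r := by
  rw [hh, max_eq_right (by linarith), max_eq_left (by linarith), sub_zero]

theorem hh_neg (r s : ℝ) : hh r (-s) = - hh r s := by
  simp only [hh, neg_neg]
  ring

theorem hh_lip (r s t : ℝ) : |hh r s - hh r t| ≤ 2 * |s - t| := by
  have h1 := abs_max_sub_max_le_abs (s - r) (t - r) 0
  have h2 := abs_max_sub_max_le_abs (-s - r) (-t - r) 0
  have h3 : s - r - (t - r) = s - t := by ring
  have h4 : -s - r - (-t - r) = -(s - t) := by ring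
  rw [h3] at h1
  rw [h4, abs_neg] at h2
  have h5 : hh r s - hh r t = (max (s - r) 0 - max (t - r) 0) - (max (-s - r) 0 - max (-t - r) 0) := by
    rw [hh, hh, max_comm 0 (s - r), max_comm 0 (-s - r), max_comm 0 (t - r), max_comm 0 (-t - r)]
    ring
  rw [h5]
  refine (abs_sub _ _).trans ?_
  linarith

theorem hh_conical (r : ℝ) : ConicalOn (hh r) univ ∧ Continuous (hh r) := by
  have hu : ConicalSet (univ : Set ℝ) := locCone_univ.conicalSet
  have c1 : Continuous fun s : ℝ => s - r := by fun_prop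
  have c2 : Continuous fun s : ℝ => -s - r := by fun_prop
  have h1 : ConicalOn (fun s : ℝ => s - r) univ := (conicalOn_id hu).sub (conicalOn_const r hu)
  have h2 : ConicalOn (fun s : ℝ => -s - r) univ :=
    (conicalOn_id hu).neg.sub (conicalOn_const r hu)
  exact ⟨((conicalOn_const (0:ℝ) hu).rmax h1 (by fun_prop) c1.continuousOn).sub
    ((conicalOn_const (0:ℝ) hu).rmax h2 (by fun_prop) c2.continuousOn),
    (continuous_const.max c1).sub (continuous_const.max c2)⟩

/-- the stretch of the interval `[-w, w]` onto `[-t w, t w]`, identity on `[-(w-δ), w-δ]` -/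
noncomputable def gg (w δ t s : ℝ) : ℝ := s + (t - 1) * w / δ * hh (w - δ) s

theorem gg_of_le {w δ t s : ℝ} (h : |s| ≤ w - δ) : gg w δ t s = s := by
  rw [gg, hh_zero h, mul_zero, add_zero]

theorem gg_neg (w δ t s : ℝ) : gg w δ t (-s) = - gg w δ t s := by
  rw [gg, gg, hh_neg]; ring

theorem gg_end {w δ t : ℝ} (hδ : 0 < δ) (hw : δ ≤ w) : gg w δ t w = t * w := by
  rw [gg, hh_pos (by linarith) (by linarith)]
  field_simp
  ring

theorem gg_mono {w δ t : ℝ} (hδ : 0 < δ) (ht : |t - 1| * w ≤ δ / 4) (hw : 0 ≤ w) {r s : ℝ}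
    (h : r < s) : gg w δ t r < gg w δ t s := by
  have h1 := hh_lip (w - δ) s r
  have h2 : |(t - 1) * w / δ| ≤ 1 / 4 := by
    rw [abs_div, abs_mul, abs_of_nonneg hw, abs_of_pos hδ, div_le_iff₀ hδ]
    linarith
  have h3 : |(t - 1) * w / δ * (hh (w - δ) s - hh (w - δ) r)| ≤ 1 / 4 * (2 * |s - r|) := by
    rw [abs_mul]
    exact mul_le_mul h2 h1 (abs_nonneg _) (by norm_num)
  rw [abs_of_pos (sub_pos.2 h)] at h3
  have h4 := (abs_le.1 h3).1
  rw [gg, gg]
  have h5 : (t - 1) * w / δ * (hh (w - δ) s - hh (w - δ) r) =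
    (t - 1) * w / δ * hh (w - δ) s - (t - 1) * w / δ * hh (w - δ) r := by ring
  rw [h5] at h4
  linarith

theorem gg_le_iff {w δ t : ℝ} (hδ : 0 < δ) (hw : δ ≤ w) (ht : |t - 1| * w ≤ δ / 4) (s : ℝ) :
    |gg w δ t s| ≤ t * w ↔ |s| ≤ w := by
  have hm : StrictMono (gg w δ t) := fun r s h => gg_mono hδ ht (by linarith) h
  have he := gg_end (t := t) hδ hw
  have he' : gg w δ t (-w) = -(t * w) := by rw [gg_neg, he]
  rw [abs_le, abs_le, ← he', ← he, hm.le_iff_le, hm.le_iff_le]

/-- the displacement -/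
noncomputable def st (c w : V) (δ t : ℝ) (x : V) : V := fun l =>
  (t - 1) * w l / δ * hh (w l - δ) (x l - c l)

variable {c w : V} {δ t : ℝ}

theorem st_coord (x : V) (l : Fin 3) : x l + st c w δ t x l = c l + gg (w l) δ t (x l - c l) := by
  rw [st, gg]; ring

theorem st_lip (hδ : 0 < δ) (hw : ∀ k, 0 < w k) (ht : ∀ k, |t - 1| * w k ≤ δ / 4) (x y : V) :
    ‖st c w δ t x - st c w δ t y‖ ≤ 1 / 2 * ‖x - y‖ := by
  refine (pi_norm_le_iff_of_nonneg (by positivity)).2 fun l => ?_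
  rw [Pi.sub_apply, Real.norm_eq_abs]
  have h2 : |(t - 1) * w l / δ| ≤ 1 / 4 := by
    rw [abs_div, abs_mul, abs_of_pos (hw l), abs_of_pos hδ, div_le_iff₀ hδ]
    linarith [ht l]
  have h1 := hh_lip (w l - δ) (x l - c l) (y l - c l)
  have h3 : x l - c l - (y l - c l) = (x - y) l := by rw [Pi.sub_apply]; ring
  rw [h3] at h1
  have h4 : |(x - y) l| ≤ ‖x - y‖ := norm_le_pi_norm (x - y) l
  have h5 : st c w δ t x l - st c w δ t y l =
      (t - 1) * w l / δ * (hh (w l - δ) (x l - c l) - hh (w l - δ) (y l - c l)) := by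
    rw [st, st]; ring
  rw [h5, abs_mul]
  calc |(t - 1) * w l / δ| * |hh (w l - δ) (x l - c l) - hh (w l - δ) (y l - c l)|
      ≤ 1 / 4 * (2 * ‖x - y‖) := by
        refine mul_le_mul h2 (h1.trans ?_) (abs_nonneg _) (by norm_num)
        linarith
    _ = _ := by ring

theorem st_conical (c w : V) (δ t : ℝ) : ConicalOn (st c w δ t) univ := by
  intro x hx
  refine conicalWithinAt_pi (locCone_univ.conicalSet x hx) fun l => ?_
  have h1 : ConicalOn (fun y : V => y l - c l) univ :=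
    (conicalOn_coord l).sub (conicalOn_const (c l) locCone_univ.conicalSet)
  have h2 : ConicalOn (fun y : V => hh (w l - δ) (y l - c l)) univ :=
    (hh_conical (w l - δ)).1.comp h1 (mapsTo_univ _ _) (by fun_prop)
  exact (h2.const_smul ((t - 1) * w l / δ)) x hx

/-- **the stretch** -/
theorem exists_stretch (c w : V) (hδ : 0 < δ) (hδw : ∀ k, δ ≤ w k)
    (ht : ∀ k, |t - 1| * w k ≤ δ / 4) :
    ∃ Ψ : ConHomeo (univ : Set V) (univ : Set V),
      (∀ x l, Ψ.toFun x l = c l + gg (w l) δ t (x l - c l)) ∧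
      ∀ x y, ‖(Ψ.toFun x - Ψ.toFun y)‖ ≤ 3 / 2 * ‖x - y‖ := by
  have hw : ∀ k, 0 < w k := fun k => hδ.trans_le (hδw k)
  have hl := st_lip (c := c) hδ hw ht
  obtain ⟨Ψ, hΨ⟩ := exists_pert (by norm_num) (by norm_num) hl (st_conical c w δ t)
  refine ⟨Ψ, fun x l => ?_, fun x y => ?_⟩
  · rw [hΨ, Pi.add_apply, st_coord]
  · have h1 : Ψ.toFun x - Ψ.toFun y = (x - y) + (st c w δ t x - st c w δ t y) := by
      rw [hΨ, hΨ]; abel
    rw [h1]
    refine (norm_add_le _ _).trans ?_
    linarith [hl x y]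

end P073.GB1
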