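import Vale.Agent.P073.GB1.Bump
import Vale.Agent.P073.GB1.Stretch
import Vale.Agent.P073.GB1W.Cross

/-!
# P073, block GB1 (ADJ): the model maps of the box onto the bodies, exact at the marked points
-/

open Set Metric Topology Filter

namespace P073.GB1

open P073.GB73 P073.GB1W
open Vale.Agent.P073.St (V)

variable {B : Type}

/-- Position data of the marked points: `p i` is on the face `(k i, σ i)` of the box with centre
`c`, half sides `w`, at distance at least `m` from the other faces. -/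
structure Marks (M : Finset B) (c w : V) (m : ℝ) (p : B → V) (k : B → Fin 3) (σ : B → ℝ) :
    Prop where
  sgn : ∀ i ∈ M, σ i = 1 ∨ σ i = -1
  face : ∀ i ∈ M, p i (k i) = c (k i) + σ i * w (k i)
  mid : ∀ i ∈ M, ∀ j, j ≠ k i → |p i j - c j| ≤ w j - m

/-- the move of the marked points preserves the box -/
theorem mem_box_move {M : Finset B} {c w : V} {m d μ : ℝ} {p v : B → V} {k : B → Fin 3}
    {σ : B → ℝ} (H : Marks M c w m p k σ) (hd : 0 < d) (hdm : d ≤ m) (hμd : 4 * μ ≤ d)
    (hsep : ∀ i ∈ M, ∀ j ∈ M, i ≠ j → 2 * d ≤ ‖p i - p j‖) (hv : ∀ i ∈ M, ‖v i‖ ≤ μ)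
    (hv0 : ∀ i ∈ M, v i (k i) = 0) (x : V) (l : Fin 3) :
    |(x + bump M d p v x) l - c l| ≤ w l ↔ |x l - c l| ≤ w l := by
  rcases bump_cases (v := v) hd hsep x with h | ⟨i, hi, hxi, h⟩
  · rw [bump_eq_zero hd h, add_zero]
  · rw [h]
    by_cases hl : l = k i
    · subst hl
      rw [Pi.add_apply, Pi.smul_apply, hv0 i hi, smul_zero, add_zero]
    · have h1 := H.mid i hi l hl
      have h2 : |(x - p i) l| ≤ ‖x - p i‖ := norm_le_pi_norm (x - p i) l
      have h3 : |v i l| ≤ μ := (norm_le_pi_norm (v i) l).trans (hv i hi)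
      have h4 : |x l - c l| ≤ w l := by
        have : x l - c l = (x - p i) l + (p i l - c l) := by rw [Pi.sub_apply]; ring
        rw [this]
        exact (abs_add_le _ _).trans (by linarith)
      have h5 : |(x + wt d (p i) x • v i) l - c l| ≤ w l := by
        have h6 : (x + wt d (p i) x • v i) l - c l =
            (x - p i) l + (p i l - c l) + wt d (p i) x * v i l := by
          rw [Pi.add_apply, Pi.smul_apply, Pi.sub_apply, smul_eq_mul]; ring
        rw [h6]
        have h7 : |wt d (p i) x * v i l| ≤ d - ‖x - p i‖ := by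
          rw [abs_mul, abs_of_nonneg (wt_nonneg _ _ _), wt_eq hd hxi.le]
          have h8 : 0 ≤ 1 - ‖x - p i‖ / d := by
            rw [sub_nonneg, div_le_one hd]; exact hxi.le
          calc (1 - ‖x - p i‖ / d) * |v i l| ≤ (1 - ‖x - p i‖ / d) * d := by
                refine mul_le_mul_of_nonneg_left ?_ h8
                have := (abs_nonneg (v i l)).trans h3
                linarith
            _ = d - ‖x - p i‖ := by field_simp
        have h9 := abs_add_le ((x - p i) l + (p i l - c l)) (wt d (p i) x * v i l)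
        have h10 := abs_add_le ((x - p i) l) (p i l - c l)
        linarith
      exact ⟨fun _ => h4, fun _ => h5⟩

theorem mem_Icc_iff_abs (c w x : V) : x ∈ Icc (c - w) (c + w) ↔ ∀ l, |x l - c l| ≤ w l := by
  simp only [mem_Icc, Pi.le_def, Pi.sub_apply, Pi.add_apply, abs_le]
  constructor
  · rintro ⟨h1, h2⟩ l
    constructor <;> linarith [h1 l, h2 l]
  · intro h
    exact ⟨fun l => by linarith [(h l).1], fun l => by linarith [(h l).2]⟩

/-- the affine conical homeomorphism -/
noncomputable def affHomeo (y0 : V) (A : V ≃L[ℝ] V) (c : V) :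
    ConHomeo (univ : Set V) (univ : Set V) where
  toFun := fun x => y0 + A (x - c)
  invFun := fun y => c + A.symm (y - y0)
  mapsTo := mapsTo_univ _ _
  mapsTo_inv := mapsTo_univ _ _
  left_inv := fun x _ => by simp
  right_inv := fun x _ => by simp
  cont := by fun_prop
  cont_inv := by fun_prop
  conical := by
    have h1 : ConicalOn (fun x : V => x - c) univ :=
      (conicalOn_id locCone_univ.conicalSet).sub (conicalOn_const c locCone_univ.conicalSet)
    have h2 : ConicalOn (fun x : V => A (x - c)) univ :=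
      h1.linear_comp A.toLinearEquiv.toLinearMap
    exact (conicalOn_const y0 locCone_univ.conicalSet).add h2

/-- **(ADJ)** the model map of the box `[c - w, c + w]` onto the body of level `t`, with prescribed
values `y i` at the marked points `p i`; it is the affine map `y0 + A (x - c)` off the collar of
width `δ` and off the cubes of radius `d` around the marked points. -/
theorem exists_model {M : Finset B} {c w : V} {m d δ μ t : ℝ} {p y : B → V} {k : B → Fin 3}
    {σ : B → ℝ} {y0 : V} {A : V ≃L[ℝ] V} {T₀ : Set ℝ} (H : Marks M c w m p k σ) (hd : 0 < d)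
    (hδ : 0 < δ) (hμ : 0 ≤ μ) (hdm : d ≤ m) (hμd : 4 * μ ≤ d) (hδm : δ + μ ≤ m)
    (hδw : ∀ l, δ ≤ w l) (ht0 : 0 < t) (ht : ∀ l, |t - 1| * w l ≤ δ / 4)
    (hsep : ∀ i ∈ M, ∀ j ∈ M, i ≠ j → 2 * d ≤ ‖p i - p j‖)
    (hy : ∀ i ∈ M, A.symm (y i - y0) (k i) = σ i * (t * w (k i)) ∧
      ∀ j, j ≠ k i → |A.symm (y i - y0) j - (p i j - c j)| ≤ μ) :
    ∃ L : ConHomeo (Icc (c - w) (c + w)) ((bBody y0 A w T₀).at t),
      (∀ i ∈ M, L.toFun (p i) = y i) ∧
      (∀ x, (∀ l, |x l - c l| ≤ w l - δ) → (∀ i ∈ M, d ≤ ‖x - p i‖) →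
        L.toFun x = y0 + A (x - c)) ∧
      (∀ x ∈ Icc (c - w) (c + w), ‖A.symm (L.toFun x - y0) - (x - c)‖ ≤ μ + δ / 4) ∧
      (∀ x y, ‖A.symm (L.toFun x - L.toFun y)‖ ≤ 9 / 4 * ‖x - y‖) := by
  classical
  have hw : ∀ l, 0 < w l := fun l => hδ.trans_le (hδw l)
  set v : B → V := fun i j => if j = k i then 0 else A.symm (y i - y0) j - (p i j - c j) with hv
  have hvμ : ∀ i ∈ M, ‖v i‖ ≤ μ := by
    intro i hi
    refine (pi_norm_le_iff_of_nonneg hμ).2 fun j => ?_
    by_cases hj : j = k i
    · simp only [hv, hj, if_true, norm_zero]; exact hμ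
    · simp only [hv, if_neg hj]
      exact (hy i hi).2 j hj
  have hv0 : ∀ i ∈ M, v i (k i) = 0 := fun i _ => by simp [hv]
  obtain ⟨Ψ, hΨ, hΨl⟩ := exists_move hd hμ hμd hsep hvμ
  obtain ⟨Φ, hΦ, hΦl⟩ := exists_stretch c w hδ hδw ht
  set Θ := (Ψ.trans Φ).trans (affHomeo y0 A c) with hΘ
  have hΘx : ∀ x, Θ.toFun x = y0 + A (Φ.toFun (Ψ.toFun x) - c) := fun x => rfl
  -- image of the box
  have himg : ∀ x, Θ.toFun x ∈ (bBody y0 A w T₀).at t ↔ x ∈ Icc (c - w) (c + w) := by
    intro x
    rw [mem_at ht0, hΘx, mem_Icc_iff_abs]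
    refine forall_congr' fun l => ?_
    have e1 : A.symm (y0 + A (Φ.toFun (Ψ.toFun x) - c) - y0) l =
        gg (w l) δ t (Ψ.toFun x l - c l) := by
      rw [add_sub_cancel_left, ContinuousLinearEquiv.symm_apply_apply, Pi.sub_apply, hΦ]
      ring
    rw [e1, gg_le_iff hδ (hδw l) (ht l), hΨ]
    exact mem_box_move H hd hdm hμd hsep hvμ hv0 x l
  have himg' : Θ.toFun '' Icc (c - w) (c + w) = (bBody y0 A w T₀).at t := by
    apply Subset.antisymm
    · rintro _ ⟨x, hx, rfl⟩
      exact (himg x).2 hx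
    · intro z hz
      refine ⟨Θ.invFun z, ?_, Θ.right_inv (mem_univ z)⟩
      rw [← himg, Θ.right_inv (mem_univ z)]
      exact hz
  refine ⟨(Θ.restr (convex_Icc _ _ |> Convex.conicalSet) (subset_univ _)).cast rfl himg',
    ?_, ?_, ?_, ?_⟩
  · -- marked points
    intro i hi
    show Θ.toFun (p i) = y i
    have h1 : Ψ.toFun (p i) = p i + v i := by
      rw [hΨ, bump_eq hd hsep hi (by rw [sub_self, norm_zero]; exact hd.le), wt_self, one_smul]
    have h2 : Φ.toFun (Ψ.toFun (p i)) - c = A.symm (y i - y0) := by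
      funext j
      rw [Pi.sub_apply, hΦ, h1, Pi.add_apply]
      by_cases hj : j = k i
      · subst hj
        rw [hv0 i hi, (hy i hi).1, H.face i hi]
        have e2 : c (k i) + σ i * w (k i) + 0 - c (k i) = σ i * w (k i) := by ring
        rw [e2]
        rcases H.sgn i hi with h | h
        · rw [h, one_mul, gg_end hδ (hδw _)]; ring
        · rw [h]
          have e3 : -1 * w (k i) = -(w (k i)) := by ring
          rw [e3, gg_neg, gg_end hδ (hδw _)]; ring
      · have e1 : p i j + v i j - c j = A.symm (y i - y0) j := by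
          simp only [hv, if_neg hj]; ring
        rw [e1, gg_of_le]
        · ring
        · have h3 := (hy i hi).2 j hj
          have h4 := H.mid i hi j hj
          have h5 : A.symm (y i - y0) j = (A.symm (y i - y0) j - (p i j - c j)) + (p i j - c j) := by
            ring
          rw [h5]
          exact (abs_add_le _ _).trans (by linarith)
    rw [hΘx, h2, ContinuousLinearEquiv.apply_symm_apply]
    abel
  · intro x hx hxp
    show Θ.toFun x = _
    have h1 : Ψ.toFun x = x := by rw [hΨ, bump_eq_zero hd hxp, add_zero]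
    rw [hΘx, h1]
    congr 2
    funext l
    rw [Pi.sub_apply, hΦ, gg_of_le (hx l), Pi.sub_apply]
    ring
  · intro x hx
    show ‖A.symm (Θ.toFun x - y0) - (x - c)‖ ≤ _
    rw [hΘx, add_sub_cancel_left, ContinuousLinearEquiv.symm_apply_apply]
    have h1 : Φ.toFun (Ψ.toFun x) - c - (x - c) =
        (Φ.toFun (Ψ.toFun x) - Ψ.toFun x) + (Ψ.toFun x - x) := by abel
    rw [h1]
    have h2 : ‖Ψ.toFun x - x‖ ≤ μ := by
      rw [hΨ, add_sub_cancel_left]
      exact norm_bump_le hd hμ hsep hvμ x
    have h3 : ‖Φ.toFun (Ψ.toFun x) - Ψ.toFun x‖ ≤ δ / 4 := by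
      refine (pi_norm_le_iff_of_nonneg (by positivity)).2 fun l => ?_
      have h4 : |Ψ.toFun x l - c l| ≤ w l := by
        rw [hΨ]
        exact (mem_box_move H hd hdm hμd hsep hvμ hv0 x l).2 ((mem_Icc_iff_abs c w x).1 hx l)
      set s := Ψ.toFun x l - c l with hs
      have h5 : (Φ.toFun (Ψ.toFun x) - Ψ.toFun x) l = (t - 1) * w l / δ * hh (w l - δ) s := by
        rw [Pi.sub_apply, hΦ, gg, ← hs]
        have : Ψ.toFun x l = c l + s := by rw [hs]; ring
        rw [this]; ring
      rw [h5, Real.norm_eq_abs, abs_mul]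
      have h6 : |hh (w l - δ) s| ≤ δ := by
        rcases le_total 0 s with h0 | h0
        · by_cases h7 : |s| ≤ w l - δ
          · rw [hh_zero h7, abs_zero]; exact hδ.le
          · push Not at h7
            rw [abs_of_nonneg h0] at h7 h4
            rw [hh_pos (by linarith [hδw l]) h7.le, abs_of_nonneg (by linarith)]
            linarith
        · by_cases h7 : |s| ≤ w l - δ
          · rw [hh_zero h7, abs_zero]; exact hδ.le
          · push Not at h7
            rw [abs_of_nonpos h0] at h7 h4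
            have h8 : s = -(-s) := by ring
            rw [h8, hh_neg, abs_neg, hh_pos (by linarith [hδw l]) h7.le, abs_of_nonneg (by linarith)]
            linarith
      have h7 : |(t - 1) * w l / δ| ≤ 1 / 4 := by
        rw [abs_div, abs_mul, abs_of_pos (hw l), abs_of_pos hδ, div_le_iff₀ hδ]
        linarith [ht l]
      calc |(t - 1) * w l / δ| * |hh (w l - δ) s| ≤ 1 / 4 * δ :=
            mul_le_mul h7 h6 (abs_nonneg _) (by norm_num)
        _ = δ / 4 := by ring
    exact (norm_add_le _ _).trans (by linarith)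
  · intro x x'
    show ‖A.symm (Θ.toFun x - Θ.toFun x')‖ ≤ _
    rw [hΘx, hΘx]
    have h1 : y0 + A (Φ.toFun (Ψ.toFun x) - c) - (y0 + A (Φ.toFun (Ψ.toFun x') - c)) =
        A (Φ.toFun (Ψ.toFun x) - Φ.toFun (Ψ.toFun x')) := by
      rw [map_sub, map_sub, map_sub]; abel
    rw [h1, ContinuousLinearEquiv.symm_apply_apply]
    have h2 := hΦl (Ψ.toFun x) (Ψ.toFun x')
    have h3 := hΨl x x'
    linarith

end P073.GB1
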