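import Vale.Agent.P073.ConHomeo
import Vale.Agent.P073.ConicalBody

/-!
# P073, block GB1: small Lipschitz perturbations of the identity
-/

open Set Metric Topology Filter
open scoped NNReal

namespace P073.GB1

variable {E : Type*} [NormedAddCommGroup E] [NormedSpace ℝ E] [CompleteSpace E]

/-- the perturbation is bijective -/
theorem pert_bij {u : E → E} {c : ℝ≥0} (hc : c < 1) (hu : LipschitzWith c u) :
    Function.Bijective (fun x => x + u x) := by
  have h1 : ApproximatesLinearOn (fun x => x + u x)
      ((ContinuousLinearEquiv.refl ℝ E : E ≃L[ℝ] E) : E →L[ℝ] E) univ c := by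
    intro x _ y _
    have h2 : x + u x - (y + u y) - ((ContinuousLinearEquiv.refl ℝ E : E ≃L[ℝ] E) : E →L[ℝ] E)
        (x - y) = u x - u y := by
      simp only [ContinuousLinearEquiv.coe_refl, ContinuousLinearMap.coe_id', id_eq]
      abel
    rw [h2]
    have := hu.dist_le_mul x y
    rwa [dist_eq_norm, dist_eq_norm] at this
  by_cases hE : Subsingleton E
  · exact ⟨fun x y _ => Subsingleton.elim _ _, fun x => ⟨x, Subsingleton.elim _ _⟩⟩
  · have h3 : ‖(((ContinuousLinearEquiv.refl ℝ E : E ≃L[ℝ] E).symm : E ≃L[ℝ] E) : E →L[ℝ] E)‖₊ ≤ 1 := by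
      simp only [ContinuousLinearEquiv.refl_symm, ContinuousLinearEquiv.coe_refl]
      exact ContinuousLinearMap.norm_id_le
    have hc' : c < ‖(((ContinuousLinearEquiv.refl ℝ E : E ≃L[ℝ] E).symm : E ≃L[ℝ] E) :
        E →L[ℝ] E)‖₊⁻¹ := by
      have : Nontrivial E := not_subsingleton_iff_nontrivial.1 hE
      have h4 : ‖(((ContinuousLinearEquiv.refl ℝ E : E ≃L[ℝ] E).symm : E ≃L[ℝ] E) :
          E →L[ℝ] E)‖₊ = 1 := by
        simp only [ContinuousLinearEquiv.refl_symm, ContinuousLinearEquiv.coe_refl]
        exact NNReal.eq (by simp)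
      rw [h4, inv_one]
      exact hc
    exact ⟨fun x y hxy => h1.injOn (Or.inr hc') (mem_univ x) (mem_univ y) hxy,
      h1.surjective (Or.inr hc')⟩

/-- a small conical Lipschitz perturbation of the identity is a conical homeomorphism of the
space -/
theorem exists_pert {u : E → E} {c : ℝ} (hc0 : 0 ≤ c) (hc : c < 1)
    (hu : ∀ x y, ‖u x - u y‖ ≤ c * ‖x - y‖) (hcon : ConicalOn u univ) :
    ∃ Ψ : ConHomeo (univ : Set E) (univ : Set E), ∀ x, Ψ.toFun x = x + u x := by
  have hlip : LipschitzWith ⟨c, hc0⟩ u := LipschitzWith.of_dist_le_mul fun x y => by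
    rw [dist_eq_norm, dist_eq_norm]; exact hu x y
  have hbij := pert_bij (show (⟨c, hc0⟩ : ℝ≥0) < 1 from by exact_mod_cast hc) hlip
  have hcont : Continuous fun x => x + u x := continuous_id.add hlip.continuous
  let e := Equiv.ofBijective _ hbij
  have he : ∀ x, e x = x + u x := fun x => rfl
  have hanti : ∀ x y, (1 - c) * ‖x - y‖ ≤ ‖e x - e y‖ := by
    intro x y
    have h1 : x - y = (e x - e y) - (u x - u y) := by rw [he, he]; abel
    have h2 : ‖x - y‖ ≤ ‖e x - e y‖ + ‖u x - u y‖ := by
      conv_lhs => rw [h1]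
      exact norm_sub_le _ _
    linarith [hu x y]
  have hinv : Continuous e.symm := by
    have h1 : 0 < 1 - c := by linarith
    have : LipschitzWith ⟨(1 - c)⁻¹, (inv_pos.2 h1).le⟩ e.symm :=
      LipschitzWith.of_dist_le_mul fun x y => by
        rw [dist_eq_norm, dist_eq_norm]
        have h2 := hanti (e.symm x) (e.symm y)
        rw [e.apply_symm_apply, e.apply_symm_apply] at h2
        show ‖e.symm x - e.symm y‖ ≤ (1 - c)⁻¹ * ‖x - y‖
        rw [inv_mul_eq_div, le_div_iff₀ h1, mul_comm]
        exact h2
    exact this.continuous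
  refine ⟨{ toFun := e
            invFun := e.symm
            mapsTo := mapsTo_univ _ _
            mapsTo_inv := mapsTo_univ _ _
            left_inv := fun x _ => e.symm_apply_apply x
            right_inv := fun x _ => e.apply_symm_apply x
            cont := hcont.continuousOn
            cont_inv := hinv.continuousOn
            conical := ?_ }, fun x => rfl⟩
  exact (conicalOn_id locCone_univ.conicalSet).add hcon

end P073.GB1
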